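import Vale.Agent.P313.H463.UV.Defs
import Vale.Agent.P313.H531.UD.U2
import Vale.Agent.P313.H531.UD.V

/-!
Universal machine for codes, module L: decoding and the chain are in `LF`.
-/

namespace Vale.Agent.P313.UV.Lf

open Finset UD UDS

variable {k : ℕ}

theorem lf_syc {f : Fn k} (hf : LF f) : LF (fun w a => syc (inSym w (f w a))) := UD.V.lf_syc hf

theorem lf_dgt {W v j : Fn k} (hW : LF W) (hv : LF v) (hj : LF j) :
    LF (fun w a => dgt (W w a) (v w a) (j w a)) := UD.U2.lf_dgt hW hv hj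

theorem lf_zc {p : Fn k} (hp : LF p) : LF (fun w a => zc w (p w a)) := by
  have h1 : LF (fun w b => if syc (inSym w (b 0 + 1)) = 2 then 1 else 0 : Fn (k + 1)) :=
    LF.ite (LFP.eq (lf_syc (LF.proj 0).succ) (LF.const 2)) (LF.const 1) (LF.const 0)
  refine (LF.sum h1 hp).congr (fun w a => ?_)
  simp only [Fin.cons_zero, zc]

theorem lf_blk {i : Fn k} (hi : LF i) : LF (fun w a => blk w (i w a)) := by
  have h1 : LF (fun w b => if syc (inSym w (b 0 + 1)) = 3 ∧ zc w (b 0) = i w (Fin.tail b) then 1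
      else 0 : Fn (k + 1)) :=
    LF.ite ((LFP.eq (lf_syc (LF.proj 0).succ) (LF.const 3)).and
      (LFP.eq (lf_zc (LF.proj 0)) hi.weak)) (LF.const 1) (LF.const 0)
  refine (LF.sum h1 LF.len).congr (fun w a => ?_)
  simp only [Fin.cons_zero, Fin.tail_cons, blk]

theorem lf_off {m : Fn k} (hm : LF m) : LF (fun w a => off w (m w a)) := by
  have h1 : LF (fun w b => if zc w (b 0) < m w (Fin.tail b) then 1 else 0 : Fn (k + 1)) :=
    LF.ite (LFP.lt (lf_zc (LF.proj 0)) hm.weak) (LF.const 1) (LF.const 0)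
  refine (LF.sum h1 LF.len).congr (fun w a => ?_)
  simp only [Fin.cons_zero, Fin.tail_cons, off]

theorem lf_tp : LF (fun w _ => tpW w : Fn k) := lf_blk (LF.const 0)
theorem lf_g : LF (fun w _ => gW w : Fn k) := lf_blk (LF.const 1)
theorem lf_q : LF (fun w _ => qW w : Fn k) := lf_blk (LF.const 2)
theorem lf_st : LF (fun w _ => stW w : Fn k) := lf_blk (LF.const 3)
theorem lf_c : LF (fun w _ => cW w : Fn k) := lf_blk (LF.const 4)

theorem lf_nk : LF (fun w _ => nkW w : Fn k) := by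
  unfold nkW
  exact (lf_q.mul (LF.const 4)).mul (LF.powMin lf_g lf_tp LF.len)

theorem lf_vt {i : Fn k} (hi : LF i) : LF (fun w a => vtW w (i w a)) := by
  unfold vtW
  exact lf_blk ((LF.const 5).add hi)

theorem lf_tb {b κ i : Fn k} (hb : LF b) (hκ : LF κ) (hi : LF i) :
    LF (fun w a => tbW w (b w a) (κ w a) (i w a)) := by
  unfold tbW
  exact lf_blk ((((LF.const 5).add lf_q).add (((hb.mul lf_nk).add hκ).mul
    ((LF.const 2).add ((LF.const 2).mul lf_tp)))).add hi)

theorem lf_m : LF (fun w _ => mW w : Fn k) := by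
  unfold mW
  exact ((LF.const 5).add lf_q).add (((LF.const 2).mul lf_nk).mul
    ((LF.const 2).add ((LF.const 2).mul lf_tp)))

theorem lf_n : LF (fun w _ => nW w : Fn k) := by
  unfold nW
  exact LF.len.sub (lf_off lf_m)

theorem lf_sy {p : Fn k} (hp : LF p) : LF (fun w a => syW w (p w a)) := by
  unfold syW
  exact LF.ite (LFP.eq hp (LF.const 0)) (LF.const 0) (lf_syc ((lf_off lf_m).add hp))

theorem lf_a : LF (fun w _ => aW w : Fn k) := by
  unfold aW
  exact ((lf_q.add (lf_g.mul (lf_c.add (LF.const 1)))).add lf_c).add (LF.const 3)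

theorem lf_W {N : Fn k} (hN : LF N) : LF (fun w a => WW w (N w a)) := by
  unfold WW
  exact LF.powMin (lf_n.add (LF.const 2)) lf_a hN

theorem lf_nd : LF (fun w _ => 2 + 3 * tpW w : Fn k) := (LF.const 2).add ((LF.const 3).mul lf_tp)

theorem lf_N {N : Fn k} (hN : LF N) : LF (fun w a => NN w (N w a)) := by
  unfold NN
  exact LF.powMin (lf_n.add (LF.const 2)) (lf_a.mul lf_nd) hN

theorem lf_T {N : Fn k} (hN : LF N) : LF (fun w a => TT w (N w a)) := by
  unfold TT
  exact (LF.powMin (lf_n.add (LF.const 2)) lf_c hN).add (LF.const 1)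

theorem lf_V {N : Fn k} (hN : LF N) : LF (fun w a => VV w (N w a)) := by
  unfold VV
  exact (lf_N hN).add (LF.const 3)

theorem lf_K {N : Fn k} (hN : LF N) : LF (fun w a => KK w (N w a)) := by
  unfold KK
  exact ((LF.const 12).mul ((lf_T hN).add (LF.const 1))).mul
    (LF.powConst ((lf_V hN).add (LF.const 1)) 2)

theorem lf_S {N : Fn k} (hN : LF N) : LF (fun w a => SS w (N w a)) := by
  unfold SS
  exact (LF.min lf_st (lf_N hN)).add (LF.const 2)

theorem lfp_Big {N : Fn k} (hN : LF N) : LFP (fun w a => Big w (N w a)) := by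
  unfold Big
  exact (LFP.le (LF.powMin (lf_n.add (LF.const 2)) (lf_a.mul lf_nd) hN) hN).congr (fun w a => by
    rw [min_le_iff]; omega)

theorem lf_und {n tp g W v j : Fn k} {tb : List Bool → (Fin k → ℕ) → ℕ → ℕ}
    (hn : LF n) (htp : LF tp) (hg : LF g) (hW : LF W)
    (htb : ∀ f : Fn k, LF f → LF (fun w a => tb w a (f w a))) (hv : LF v) (hj : LF j) :
    LF (fun w a => und (n w a) (tp w a) (g w a) (W w a) (tb w a) (v w a) (j w a)) := by
  have c2 : LF (fun _ _ => 2 : Fn k) := LF.const 2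
  have hj2 : LF (fun w a => j w a - 2) := hj.sub c2
  have hj3 : LF (fun w a => j w a - 2 - tp w a) := hj2.sub htp
  have hj4 : LF (fun w a => j w a - 2 - tp w a - tp w a) := hj3.sub htp
  have d1 : LF (fun w a => dgt (W w a) (v w a) 1) := lf_dgt hW hv (LF.const 1)
  have dj : LF (fun w a => dgt (W w a) (v w a) (j w a)) := lf_dgt hW hv hj
  have djm : LF (fun w a => dgt (W w a) (v w a) (j w a - tp w a)) := lf_dgt hW hv (hj.sub htp)
  have djp : LF (fun w a => dgt (W w a) (v w a) (j w a + tp w a)) := lf_dgt hW hv (hj.add htp)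
  unfold und
  refine LF.ite (LFP.eq hj (LF.const 0)) (htb _ (LF.const 0)) ?_
  refine LF.ite (LFP.eq hj (LF.const 1)) ?_ ?_
  · exact LF.dsel (htb _ (LF.const 1)) (d1.sub (LF.const 1)) d1 (LF.min d1.succ hn.succ)
  refine LF.ite (LFP.lt hj2 htp) ?_ ?_
  · exact LF.dsel (htb _ ((LF.const 3).add (c2.mul hj2))) (dj.div hg) dj
      ((htb _ (c2.add (c2.mul hj2))).add (hg.mul dj))
  refine LF.ite (LFP.lt hj3 htp) ?_ ?_
  · exact LF.dsel (htb _ ((LF.const 3).add (c2.mul hj3))) (djm.mod hg)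
      (htb _ (c2.add (c2.mul hj3))) (djp.mod hg)
  refine LF.ite (LFP.lt hj4 htp) ?_ (LF.const 0)
  exact LF.dsel (htb _ ((LF.const 3).add (c2.mul hj4)))
    ((htb _ (c2.add (c2.mul hj4))).add (hg.mul dj)) dj (dj.div hg)

theorem lf_key {N v W : Fn k} (hW : LF W) (hN : LF N) (hv : LF v) :
    LF (fun w a => ukey (syW w) (tpW w) (gW w) (qW w) (W w a) (N w a) (v w a)) := by
  have h2 : LF (fun w b => dgt (W w (Fin.tail b)) (v w (Fin.tail b)) (2 + tpW w + b 0) *
      Min.min (gW w ^ b 0) (N w (Fin.tail b) + 1) : Fn (k + 1)) :=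
    (lf_dgt hW.weak hv.weak (((LF.const 2).add lf_tp).add (LF.proj 0))).mul
      (LF.powMin lf_g (LF.proj 0) hN.weak)
  have h3 := LF.sum h2 (lf_tp (k := k))
  unfold ukey
  refine ((lf_dgt hW hv (LF.const 0)).add (lf_q.mul
    ((lf_sy (lf_dgt hW hv (LF.const 1))).add ((LF.const 4).mul h3)))).congr (fun w a => ?_)
  simp only [Fin.tail_cons, Fin.cons_zero]

theorem lf_nxt {W N v b : Fn k} (hW : LF W) (hN : LF N) (hv : LF v) (hb : LF b) :
    LF (fun w a => nxt (syW w) (nW w) (tpW w) (gW w) (qW w) (W w a) (tbW w (b w a)) (N w a)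
      (v w a)) := by
  classical
  have hκ : LF (fun w a => ukey (syW w) (tpW w) (gW w) (qW w) (W w a) (N w a) (v w a)) :=
    lf_key hW hN hv
  have h1 : LF (fun w c => und (nW w) (tpW w) (gW w) (W w (Fin.tail c))
      (tbW w (b w (Fin.tail c)) (ukey (syW w) (tpW w) (gW w) (qW w) (W w (Fin.tail c))
        (N w (Fin.tail c)) (v w (Fin.tail c)))) (v w (Fin.tail c)) (c 0) : Fn (k + 1)) :=
    lf_und (tb := fun w c i => tbW w (b w (Fin.tail c)) (ukey (syW w) (tpW w) (gW w) (qW w)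
        (W w (Fin.tail c)) (N w (Fin.tail c)) (v w (Fin.tail c))) i)
      lf_n lf_tp lf_g hW.weak (fun f hf => lf_tb hb.weak hκ.weak hf) hv.weak (LF.proj 0)
  have h2 : LFP (fun w a => ∀ j < 2 + 3 * tpW w, und (nW w) (tpW w) (gW w) (W w a)
      (tbW w (b w a) (ukey (syW w) (tpW w) (gW w) (qW w) (W w a) (N w a) (v w a))) (v w a) j <
        W w a) := by
    refine (LFP.all (LFP.lt h1 hW.weak) lf_nd).congr (fun w a => ?_)
    simp only [Fin.tail_cons, Fin.cons_zero]
  have h3 := LF.sum (h1.mul (LF.powMin hW.weak (LF.proj 0) hN.weak)) (lf_nd (k := k))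
  unfold nxt
  refine LF.ite h2 ?_ hN.succ
  refine h3.congr (fun w a => ?_)
  simp only [Fin.tail_cons, Fin.cons_zero]

theorem lf_CC {N v b : Fn k} (hN : LF N) (hv : LF v) (hb : LF b) :
    LF (fun w a => CC w (N w a) (v w a) (b w a)) := by
  classical
  have hd : LF (fun w a => vtW w (dgt (WW w (N w a)) (v w a - 2) 0)) :=
    lf_vt (lf_dgt (lf_W hN) (hv.sub (LF.const 2)) (LF.const 0))
  have hx := lf_nxt (lf_W hN) (lf_N hN) (hv.sub (LF.const 2)) hb
  unfold CC uch
  refine LF.ite (LFP.lt hv (LF.const 2)) hv ?_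
  refine LF.ite (LFP.eq hd (LF.const 2)) (LF.const 0) ?_
  refine LF.ite (LFP.eq hd (LF.const 1)) (LF.const 1) ?_
  exact LF.ite (LFP.le hx (lf_N hN)) (hx.add (LF.const 2)) (LF.const 1)

/-- MODULE L. -/
theorem decLF : DecLF := fun _ _ _ _ hN hv hb =>
  ⟨lf_T hN, lf_V hN, lf_K hN, lf_S hN, lfp_Big hN, lf_CC hN hv hb⟩

end Vale.Agent.P313.UV.Lf
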