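import Vale.Agent.P313.H72.UV.Ind
import Vale.Agent.P313.H589.UD.U1

/-!
Universal machine for codes, module P: the chain follows the described machine.
-/

namespace Vale.Agent.P313.UV.Ind

open Finset UD UDS

variable {M : RTM}

theorem stNo_eq (q : M.State) : stNo M q = M.cQ q := rfl

theorem nSt_eq : nSt M = Fintype.card M.State := rfl

theorem nSy_eq : nSy M = M.g := rfl

theorem syNo_eq (a : M.Sym) : syNo M a = M.cS a := rfl

theorem inNo_eq (s : InSym) : inNo s = syc s := by
  rcases s with _ | _ | b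
  · rfl
  · rfl
  · cases b <;> rfl

theorem dirNo_eq (d : Dir) : dirNo d = dcode d := by cases d <;> rfl

section digits

variable {W N : ℕ} {x : List Bool} {c : M.Cfg}

/-- The number of the situation in the configuration. -/
noncomputable def kN (x : List Bool) (c : M.Cfg) : ℕ :=
  keyNo M c.state (inSym x c.pos) (fun i => (c.work i).head)

theorem dgt_enc (hs : M.Small W c) {i : ℕ} (hi : i < M.nd) : dgt W (M.enc W c) i = M.dig c i :=
  M.enc_digit hs hi

theorem nd_pos : 0 < M.nd := by unfold RTM.nd; omega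

theorem ukey_eq {sy : ℕ → ℕ} (hsy : ∀ p, sy p = syc (inSym x p)) (hN : M.g ^ M.tapes ≤ N)
    (hs : M.Small W c) :
    UV.ukey sy M.tapes M.g (Fintype.card M.State) W N (M.enc W c) = kN x c := by
  have h0 : dgt W (M.enc W c) 0 = M.cQ c.state := by
    rw [dgt_enc hs nd_pos]; simp [RTM.dig]
  have h1 : dgt W (M.enc W c) 1 = c.pos := by
    rw [dgt_enc hs (by unfold RTM.nd; omega)]; simp [RTM.dig]
  unfold UV.ukey kN keyNo
  rw [h0, h1, hsy, inNo_eq, stNo_eq, nSt_eq, nSy_eq, Finset.sum_range]
  congr 3
  congr 1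
  refine Finset.sum_congr rfl fun i _ => ?_
  have hi := i.isLt
  have hg : M.g ^ (i : ℕ) ≤ M.g ^ M.tapes :=
    Nat.pow_le_pow_right (by have := M.two_le_g; omega) hi.le
  rw [min_eq_left (by omega), dgt_enc hs (by unfold RTM.nd; omega), syNo_eq]
  congr 1
  unfold RTM.dig
  rw [if_neg (by omega), if_neg (by omega), dif_neg (by omega), dif_pos (by omega)]
  congr 3
  apply Fin.ext
  simp only
  omega

/-- The digits of the next configuration. -/
theorem und_eq {tb : ℕ → ℕ} {b : Bool}
    (htb : ∀ i < 2 + 2 * M.tapes, tb i =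
      actNo M b c.state (inSym x c.pos) (fun i => (c.work i).head) i)
    (hs : M.Small W c) {j : ℕ} (hj : j < M.nd) :
    UV.und x.length M.tapes M.g W tb (M.enc W c) j = M.dig (M.step x c b) j := by
  set a := M.trans c.state (inSym x c.pos) (fun i => (c.work i).head) (M.coin c.state && b)
    with ha
  have hstep : M.step x c b = ⟨a.1, moveIn x.length a.2.1 c.pos,
      fun i => Tape.move M.blank (a.2.2 i).2 (Tape.write (a.2.2 i).1 (c.work i))⟩ := rfl
  have v0 : actNo M b c.state (inSym x c.pos) (fun i => (c.work i).head) 0 = M.cQ a.1 := by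
    unfold actNo; rw [if_pos rfl]; rfl
  have v1 : actNo M b c.state (inSym x c.pos) (fun i => (c.work i).head) 1 = dcode a.2.1 := by
    unfold actNo; rw [if_neg (by omega), if_pos rfl, dirNo_eq]
  have vs : ∀ (k : ℕ) (hk : k < M.tapes),
      actNo M b c.state (inSym x c.pos) (fun i => (c.work i).head) (2 + 2 * k) =
        M.cS (a.2.2 ⟨k, hk⟩).1 := by
    intro k hk
    have e3 : (2 + 2 * k - 2) / 2 = k := by omega
    unfold actNo
    rw [if_neg (by omega), if_neg (by omega)]
    simp only [e3]
    rw [dif_pos hk, if_pos (by omega)]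
    rfl
  have vd : ∀ (k : ℕ) (hk : k < M.tapes),
      actNo M b c.state (inSym x c.pos) (fun i => (c.work i).head) (3 + 2 * k) =
        dcode (a.2.2 ⟨k, hk⟩).2 := by
    intro k hk
    have e3 : (3 + 2 * k - 2) / 2 = k := by omega
    unfold actNo
    rw [if_neg (by omega), if_neg (by omega)]
    simp only [e3]
    rw [dif_pos hk, if_neg (by omega), dirNo_eq]
  rw [hstep]
  unfold UV.und
  conv_rhs => unfold RTM.dig
  unfold RTM.nd at hj
  split_ifs with h1 h2 h3 h4 h5
  · rw [htb _ (by omega), v0]
  · rw [htb _ (by omega), dgt_enc hs (by unfold RTM.nd; omega), v1]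
    have e2 : M.dig c 1 = c.pos := by simp [RTM.dig]
    rw [e2, ← moveIn_eq]
  · have e1 : M.dig c j = M.num (c.work ⟨j - 2, h3⟩).left := by
      unfold RTM.dig; rw [if_neg h1, if_neg h2, dif_pos h3]
    rw [htb _ (by omega), htb _ (by omega), vs _ h3, vd _ h3,
      dgt_enc hs (by unfold RTM.nd; omega), e1, ← RTM.nL_eq]
    exact (M.num_left_move _ _ _).symm
  · have e1 : M.dig c (j - M.tapes) = M.num (c.work ⟨j - 2 - M.tapes, h4⟩).left := by
      unfold RTM.dig
      rw [if_neg (by omega), if_neg (by omega), dif_pos (by omega)]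
      congr 3
      apply Fin.ext
      simp only
      omega
    have e1' : M.dig c (j + M.tapes) = M.num (c.work ⟨j - 2 - M.tapes, h4⟩).right := by
      unfold RTM.dig
      rw [if_neg (by omega), if_neg (by clear * - h3 h4; omega), dif_neg (by omega),
        dif_neg (by omega), dif_pos (by omega)]
      congr 3
      apply Fin.ext
      simp only
      omega
    rw [htb _ (by omega), htb _ (by omega), vs _ h4, vd _ h4,
      dgt_enc hs (by unfold RTM.nd; omega), dgt_enc hs (by unfold RTM.nd; omega), e1, e1',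
      ← RTM.nH_eq]
    exact (M.cS_head_move _ _ _).symm
  · have e1 : M.dig c j = M.num (c.work ⟨j - 2 - M.tapes - M.tapes, h5⟩).right := by
      unfold RTM.dig
      rw [if_neg h1, if_neg h2, dif_neg h3, dif_neg h4, dif_pos h5]
    rw [htb _ (by omega), htb _ (by omega), vs _ h5, vd _ h5,
      dgt_enc hs (by unfold RTM.nd; omega), e1, ← RTM.nR_eq]
    exact (M.num_right_move _ _ _).symm
  · rfl

/-- The next configuration of the chain. -/
theorem nxt_eq {sy : ℕ → ℕ} {tb : ℕ → ℕ → ℕ} {b : Bool} (hsy : ∀ p, sy p = syc (inSym x p))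
    (hN : M.g ^ M.tapes ≤ N) (hWN : W ^ M.nd ≤ N) (hs : M.Small W c)
    (hs' : M.Small W (M.step x c b))
    (htb : ∀ i < 2 + 2 * M.tapes, tb (kN x c) i =
      actNo M b c.state (inSym x c.pos) (fun i => (c.work i).head) i) :
    UV.nxt sy x.length M.tapes M.g (Fintype.card M.State) W tb N (M.enc W c) =
      M.enc W (M.step x c b) := by
  have hnd : 2 + 3 * M.tapes = M.nd := by unfold RTM.nd; ring
  have hW : 0 < W := by have := hs 0; omega
  unfold UV.nxt
  rw [ukey_eq hsy hN hs, hnd]
  rw [if_pos (fun j hj => by rw [und_eq htb hs hj]; exact hs' j)]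
  unfold RTM.enc
  refine sum_congr rfl fun j hj => ?_
  rw [mem_range] at hj
  have h1 := und_eq htb hs hj
  unfold RTM.enc at h1
  have h2 : W ^ j ≤ W ^ M.nd := Nat.pow_le_pow_right hW hj.le
  rw [h1, min_eq_left (by omega)]

end digits

/-- MODULE P. -/
theorem probSpec (hD : DecodeSpec) : ProbSpec := by
  intro M c l x hl hM N hBig
  obtain ⟨d1, d2, d3, d4, d5, d6, d7, d8, d9⟩ := hD M c l x hl
  set w := unary l ++ x with hw
  obtain ⟨⟨w1, w2, w3⟩, sg, sN, sNN, sT, sS⟩ := sizes d1 d2 d3 d4 d5 d8 hBig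
  have hsm : ∀ s d, M.Rch x s d → M.Small (WW w N) d := fun s d h => small_rch hM w1 w2 w3 h
  have hgN : M.g ^ M.tapes ≤ NN w N := by
    obtain ⟨_, _, _, a4, _, _, _⟩ :=
      pow_sizes (Fintype.card M.State) M.g c M.tapes x.length M.two_le_g
    have ea : aW w = Fintype.card M.State + M.g * (c + 1) + c + 3 := by
      unfold aW; rw [d2, d3, d5]
    unfold Big at hBig
    rw [d8, ea, d1] at hBig
    unfold NN
    rw [d8, ea, d1, min_eq_left (by omega)]
    exact a4
  have hle : ∀ s d, M.Rch x s d → M.enc (WW w N) d < NN w N := by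
    intro s d h
    rw [sN]
    exact M.enc_lt (hsm s d h)
  have hv0 : ∀ s d, M.Rch x s d →
      vtW w (dgt (WW w N) (M.enc (WW w N) d) 0) = U1.vc (M.verdict d.state) := by
    intro s d h
    rw [dgt_enc (hsm s d h) nd_pos]
    have e0 : M.dig d 0 = M.cQ d.state := by simp [RTM.dig]
    rw [e0, d6]
  have key := hit_probAt (M := M) (x := x) (cc := toB (CC w N)) (e := M.enc (WW w N))
    (fun b => by unfold toB CC uch; rw [if_pos (by omega)])
    (fun b => by unfold toB CC uch; rw [if_pos (by omega)])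
    (fun s d h hv b => by
      unfold toB CC uch
      rw [if_neg (by omega), Nat.add_sub_cancel, hv0 s d h, hv, if_pos (by simp [U1.vc])])
    (fun s d h hv b => by
      unfold toB CC uch
      rw [if_neg (by omega), Nat.add_sub_cancel, hv0 s d h, hv, if_neg (by simp [U1.vc]),
        if_pos (by simp [U1.vc])])
    (fun s d h hv b => by
      have hn : UV.nxt (syW w) (nW w) (tpW w) (gW w) (qW w) (WW w N) (tbW w b.toNat) (NN w N)
          (M.enc (WW w N) d) = M.enc (WW w N) (M.step x d b) := by
        rw [d8, d1, d2, d3]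
        refine nxt_eq d9 hgN (by rw [sN]) (hsm s d h) (hsm _ _ (h.step hv b)) ?_
        intro i hi
        exact d7 b d.state (inSym x d.pos) _ i hi
      have hle' := hle _ _ (h.step hv b)
      unfold toB CC uch
      rw [if_neg (by omega), Nat.add_sub_cancel, hv0 s d h, hv, if_neg (by simp [U1.vc]),
        if_neg (by simp [U1.vc]), hn, if_pos hle'.le])
  have := key ((x.length + 2) ^ c) 0 M.init (M.rch_init x)
  rw [sT, sS]
  exact this

end Vale.Agent.P313.UV.Ind
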