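import Vale.Agent.P313.H463.UV.Defs

/-!
Universal machine for codes, module P, the induction: hitting probabilities of the chain and
acceptance probabilities of the machine; the sizes of the parameters.
-/

namespace Vale.Agent.P313.UV.Ind

open Finset UD UDS

variable {M : RTM}

theorem hit_abs0 {cc : ℕ → Bool → ℕ} (h0 : ∀ b, cc 0 b = 0) : ∀ t, hit cc 0 t 0 = 1 := by
  intro t
  induction t with
  | zero => simp [hit]
  | succ t ih =>
    simp only [hit, h0, ih]
    norm_num

theorem hit_abs1 {cc : ℕ → Bool → ℕ} (h1 : ∀ b, cc 1 b = 1) : ∀ t, hit cc 0 t 1 = 0 := by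
  intro t
  induction t with
  | zero => simp [hit]
  | succ t ih =>
    simp only [hit, h1, ih]
    norm_num

/-- The step of a state without a coin does not depend on the bit. -/
theorem step_nocoin {x : List Bool} {c : M.Cfg} (h : M.coin c.state = false) (b : Bool) :
    M.step x c b = M.step x c false := by
  simp only [RTM.step, h, Bool.false_and]

/-- The probability to be in the accepting state `0` of a chain which follows the machine. -/
theorem hit_probAt {x : List Bool} {cc : ℕ → Bool → ℕ} {e : M.Cfg → ℕ}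
    (h0 : ∀ b, cc 0 b = 0) (h1 : ∀ b, cc 1 b = 1)
    (hA : ∀ s c, M.Rch x s c → M.verdict c.state = some true → ∀ b, cc (e c + 2) b = 0)
    (hR : ∀ s c, M.Rch x s c → M.verdict c.state = some false → ∀ b, cc (e c + 2) b = 1)
    (hN : ∀ s c, M.Rch x s c → M.verdict c.state = none → ∀ b,
      cc (e c + 2) b = e (M.step x c b) + 2) :
    ∀ (t s : ℕ) (c : M.Cfg), M.Rch x s c →
      hit cc 0 (t + 1) (e c + 2) = M.probAt x true t 0 c := by
  intro t
  induction t with
  | zero =>
    intro s c hc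
    cases hv : M.verdict c.state with
    | some r =>
      cases r with
      | true => simp [hit, RTM.probAt, hA s c hc hv, hv]
      | false => simp [hit, RTM.probAt, hR s c hc hv, hv]
    | none => simp [hit, RTM.probAt, hN s c hc hv, hv]
  | succ t ih =>
    intro s c hc
    cases hv : M.verdict c.state with
    | some r =>
      cases r with
      | true =>
        have e1 : M.probAt x true (t + 1) 0 c = 1 := by simp [RTM.probAt, hv]
        have e2 : hit cc 0 (t + 1 + 1) (e c + 2) =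
          (hit cc 0 (t + 1) (cc (e c + 2) false) + hit cc 0 (t + 1) (cc (e c + 2) true)) / 2 := rfl
        rw [e1, e2, hA s c hc hv, hA s c hc hv, hit_abs0 h0]
        norm_num
      | false =>
        have e1 : M.probAt x true (t + 1) 0 c = 0 := by simp [RTM.probAt, hv]
        have e2 : hit cc 0 (t + 1 + 1) (e c + 2) =
          (hit cc 0 (t + 1) (cc (e c + 2) false) + hit cc 0 (t + 1) (cc (e c + 2) true)) / 2 := rfl
        rw [e1, e2, hR s c hc hv, hR s c hc hv, hit_abs1 h1]
        norm_num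
    | none =>
      have e2 : hit cc 0 (t + 1 + 1) (e c + 2) =
        (hit cc 0 (t + 1) (cc (e c + 2) false) + hit cc 0 (t + 1) (cc (e c + 2) true)) / 2 := rfl
      have i1 := ih (s + 1) _ (hc.step hv false)
      have i2 := ih (s + 1) _ (hc.step hv true)
      rw [e2, hN s c hc hv, hN s c hc hv, i1, i2]
      by_cases hcoin : M.coin c.state = true
      · simp [RTM.probAt, hv, hcoin]
      · have hcoin' : M.coin c.state = false := by simpa using hcoin
        rw [step_nocoin hcoin' true]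
        simp [RTM.probAt, hv, hcoin']

/-! ### Sizes -/

/-- The radix of the codes is large enough. -/
theorem pow_sizes (q g c tp n : ℕ) (hg : 2 ≤ g) :
    let a := q + g * (c + 1) + c + 3
    n + 1 < (n + 2) ^ a ∧ q ≤ (n + 2) ^ a ∧ g ^ (c * Nat.log 2 (n + 2) + 1) ≤ (n + 2) ^ a ∧
      g ^ tp ≤ (n + 2) ^ (a * (2 + 3 * tp)) ∧ (n + 2) ^ c ≤ (n + 2) ^ (a * (2 + 3 * tp)) ∧
      (n + 2) ^ a ≤ (n + 2) ^ (a * (2 + 3 * tp)) ∧ ((n + 2) ^ a) ^ (2 + 3 * tp) =
        (n + 2) ^ (a * (2 + 3 * tp)) := by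
  intro a
  have h2 : 2 ≤ n + 2 := by omega
  have mono : ∀ {i j : ℕ}, i ≤ j → (n + 2) ^ i ≤ (n + 2) ^ j := fun h =>
    Nat.pow_le_pow_right (by omega) h
  have ha : a = q + g * (c + 1) + c + 3 := rfl
  have hlt : ∀ k : ℕ, k ≤ (n + 2) ^ k := fun k =>
    (Nat.lt_two_pow_self (n := k)).le.trans (Nat.pow_le_pow_left h2 k)
  have haa : a ≤ a * (2 + 3 * tp) := by nlinarith
  refine ⟨?_, ?_, ?_, ?_, ?_, mono haa, by rw [← pow_mul]⟩
  · have : (n + 2) ^ 1 ≤ (n + 2) ^ a := mono (by omega)
    rw [pow_one] at this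
    omega
  · exact (hlt q).trans (mono (by omega))
  · have e1 : g ^ (c * Nat.log 2 (n + 2) + 1) = (g ^ Nat.log 2 (n + 2)) ^ c * g := by
      rw [pow_succ, mul_comm c, pow_mul]
    have e2 : g ^ Nat.log 2 (n + 2) ≤ (n + 2) ^ g := by
      calc g ^ Nat.log 2 (n + 2) ≤ (2 ^ g) ^ Nat.log 2 (n + 2) :=
            Nat.pow_le_pow_left (Nat.lt_two_pow_self (n := g)).le _
        _ = (2 ^ Nat.log 2 (n + 2)) ^ g := by rw [← pow_mul, ← pow_mul, mul_comm]
        _ ≤ (n + 2) ^ g := Nat.pow_le_pow_left (Nat.pow_log_le_self 2 (by omega)) _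
    calc g ^ (c * Nat.log 2 (n + 2) + 1) = (g ^ Nat.log 2 (n + 2)) ^ c * g := e1
      _ ≤ ((n + 2) ^ g) ^ c * (n + 2) ^ g := Nat.mul_le_mul (Nat.pow_le_pow_left e2 c) (hlt g)
      _ = (n + 2) ^ (g * (c + 1)) := by rw [← pow_mul, ← pow_add]; congr 1
      _ ≤ (n + 2) ^ a := mono (by omega)
  · calc g ^ tp ≤ ((n + 2) ^ g) ^ tp := Nat.pow_le_pow_left (hlt g) tp
      _ = (n + 2) ^ (g * tp) := by rw [← pow_mul]
      _ ≤ (n + 2) ^ (a * (2 + 3 * tp)) := by
        apply mono
        have h3 : g ≤ a := by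
          rw [ha]
          have : g * 1 ≤ g * (c + 1) := Nat.mul_le_mul_left _ (by omega)
          omega
        calc g * tp ≤ a * tp := Nat.mul_le_mul_right _ h3
          _ ≤ a * (2 + 3 * tp) := Nat.mul_le_mul_left _ (by omega)
  · apply mono
    exact le_trans (by omega) haa

/-- The values of the parameters for large `N`. -/
theorem sizes {M : RTM} {c : ℕ} {w : List Bool} {n N : ℕ} (ht : tpW w = M.tapes) (hg : gW w = M.g)
    (hq : qW w = Fintype.card M.State) (hs : stW w = M.cQ M.start) (hc : cW w = c)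
    (hn : nW w = n) (hB : Big w N) :
    (n + 1 < WW w N ∧ Fintype.card M.State ≤ WW w N ∧
      M.g ^ (c * Nat.log 2 (n + 2) + 1) ≤ WW w N) ∧
      M.g ^ M.tapes ≤ N ∧ NN w N = WW w N ^ M.nd ∧ NN w N ≤ N ∧
      TT w N = (n + 2) ^ c + 1 ∧ SS w N = M.enc (WW w N) M.init + 2 := by
  obtain ⟨a1, a2, a3, a4, a5, a6, a7⟩ :=
    pow_sizes (Fintype.card M.State) M.g c M.tapes n M.two_le_g
  have ea : aW w = Fintype.card M.State + M.g * (c + 1) + c + 3 := by
    unfold aW; rw [hq, hg, hc]
  unfold Big at hB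
  rw [hn, ea, ht] at hB
  have eW : WW w N = (n + 2) ^ (Fintype.card M.State + M.g * (c + 1) + c + 3) := by
    unfold WW; rw [hn, ea]; exact min_eq_left (by omega)
  have eN : NN w N =
      (n + 2) ^ ((Fintype.card M.State + M.g * (c + 1) + c + 3) * (2 + 3 * M.tapes)) := by
    unfold NN; rw [hn, ea, ht]; exact min_eq_left (by omega)
  have end' : M.nd = 2 + 3 * M.tapes := by unfold RTM.nd; ring
  refine ⟨⟨by rw [eW]; exact a1, by rw [eW]; exact a2, by rw [eW]; exact a3⟩, by omega, ?_,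
    by omega, ?_, ?_⟩
  · rw [eN, eW, end', a7]
  · unfold TT; rw [hn, hc, min_eq_left (by omega)]
  · unfold SS
    rw [hs, M.enc_init, eN, min_eq_left]
    have := M.cQ_lt M.start
    omega

/-- Reachable configurations are small. -/
theorem small_rch {M : RTM} {c : ℕ}
    (hM : M.Bounded (fun n => (n + 2) ^ c) (fun n => c * Nat.log 2 (n + 2))) {x : List Bool}
    {W : ℕ} (hW1 : x.length + 1 < W) (hW2 : Fintype.card M.State ≤ W)
    (hW3 : M.g ^ (c * Nat.log 2 (x.length + 2) + 1) ≤ W) {s : ℕ} {d : M.Cfg}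
    (h : M.Rch x s d) : M.Small W d :=
  (M.fit_of_bounded hM x hW1 hW2 hW3).small s d h

end Vale.Agent.P313.UV.Ind
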